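import Vale.Agent.P172Z.Cub.Main

/-!
# P172: cubulated hyperbolic groups are CAT(-1) groups

Every word-hyperbolic group that acts geometrically on a median graph (the 1-skeleton of a CAT(0)
cube complex) acts geometrically on a nonempty proper space that is CAT(-1) (and CAT(0)).
-/

namespace Vale.Agent.Results.P172.CubulatedCATNegOne

open Vale.Agent.P172 Vale.Agent.P172.H372 Vale.Agent.P172Z.Cub

theorem result (G : Type) [Group G] (hh : IsWordHyperbolic G) (hc : IsCubulated G) :
    ∃ (X : Type) (_ : MetricSpace X) (_ : MulAction G X), Nonempty X ∧ ProperSpace X ∧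
      IsIsometricSMul G X ∧ IsCAT0 X ∧ IsCATNegOne X ∧ IsGeometric G X :=
  main G hh hc

end Vale.Agent.Results.P172.CubulatedCATNegOne
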